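import Mathlib

/-! P284, TAN: the pointwise core. A function with the sub-mean property on small balls, which is
differentiable in the L¹ mean at a point, has its linearisation as an upper bound; if it is constant
along a curve through the point, the differential kills the velocity. -/

open MeasureTheory Metric Filter Topology Set

namespace Vale.Agent.P284.H35.TAN

section general

variable {E : Type*} [NormedAddCommGroup E] [NormedSpace ℝ E] [FiniteDimensional ℝ E]
  [MeasurableSpace E] [BorelSpace E] (μ : Measure E) [μ.IsAddHaarMeasure]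

theorem upper0 [Nontrivial E] (g : E → ℝ) (G : E →L[ℝ] ℝ) {δ : ℝ} (hδ : 0 < δ)
    (hsub : ∀ h r, 0 < r → ‖h‖ + r < δ → g h ≤ ⨍ k in ball h r, g k ∂μ)
    (hint : IntegrableOn g (ball 0 δ) μ) (h0 : g 0 ≤ 0)
    (hdiff : Tendsto (fun r => r⁻¹ * ⨍ k in ball (0 : E) r, |g k - G k| ∂μ) (𝓝[>] 0) (𝓝 0))
    {ε : ℝ} (hε : 0 < ε) : ∀ᶠ h in 𝓝 (0 : E), g h ≤ G h + ε * ‖h‖ := by
  set η : ℝ := min 1 (ε / (2 * (‖G‖ + 1))) with hη
  have hG0 : (0 : ℝ) < ‖G‖ + 1 := by positivity
  have hη0 : 0 < η := lt_min one_pos (by positivity)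
  have hη1 : η ≤ 1 := min_le_left _ _
  have hηG : ‖G‖ * η ≤ ε / 2 := by
    have h1 : η ≤ ε / (2 * (‖G‖ + 1)) := min_le_right _ _
    calc ‖G‖ * η ≤ (‖G‖ + 1) * (ε / (2 * (‖G‖ + 1))) := by
          apply mul_le_mul (by linarith) h1 hη0.le hG0.le
      _ = ε / 2 := by field_simp
  set d := Module.finrank ℝ E with hd
  set C : ℝ := ((1 + η) / η) ^ d with hC
  have hC0 : 0 < C := by positivity
  have hev : ∀ᶠ r in 𝓝[>] (0 : ℝ), r⁻¹ * ⨍ k in ball (0 : E) r, |g k - G k| ∂μ < ε / (4 * C) :=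
    hdiff.eventually (gt_mem_nhds (by positivity))
  obtain ⟨r0, hr0, hr0'⟩ := mem_nhdsGT_iff_exists_Ioo_subset.1 hev
  have hr0p : 0 < r0 := hr0
  rw [Metric.eventually_nhds_iff]
  refine ⟨min (r0 / 2) (δ / 2), by positivity, fun {h} hh => ?_⟩
  rw [dist_zero_right] at hh
  have hh1 : ‖h‖ < r0 / 2 := lt_of_lt_of_le hh (min_le_left _ _)
  have hh2 : ‖h‖ < δ / 2 := lt_of_lt_of_le hh (min_le_right _ _)
  rcases eq_or_ne h 0 with rfl | hne
  · simpa using h0
  have hn : 0 < ‖h‖ := norm_pos_iff.2 hne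
  set ρ := η * ‖h‖ with hρ
  set r := (1 + η) * ‖h‖ with hr
  have hρ0 : 0 < ρ := by positivity
  have hrpos : 0 < r := by positivity
  have hrr0 : r < r0 := by rw [hr]; nlinarith
  have hrδ : r < δ := by rw [hr]; nlinarith
  have hρle : ‖h‖ + ρ = r := by rw [hρ, hr]; ring
  have hsubset : ball h ρ ⊆ ball (0 : E) r := by
    apply ball_subset_ball'
    rw [dist_zero_right]
    linarith
  have hmean := hsub h ρ hρ0 (by linarith)
  have hA := hr0' ⟨hrpos, hrr0⟩
  simp only [Set.mem_ofPred_eq] at hA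
  -- measures
  have hμρ : 0 < μ.real (ball h ρ) := by
    rw [measureReal_def]
    exact ENNReal.toReal_pos (measure_ball_pos μ h hρ0).ne' measure_ball_lt_top.ne
  have hμr : 0 < μ.real (ball (0 : E) r) := by
    rw [measureReal_def]
    exact ENNReal.toReal_pos (measure_ball_pos μ _ hrpos).ne' measure_ball_lt_top.ne
  have hμ : μ.real (ball (0 : E) r) = C * μ.real (ball h ρ) := by
    have e1 : r = ((1 + η) / η) * ρ := by rw [hr, hρ]; field_simp
    rw [measureReal_def, measureReal_def, e1,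
      Measure.addHaar_ball_mul_of_pos μ (0 : E) (by positivity : 0 < (1 + η) / η) ρ,
      ENNReal.toReal_mul, ENNReal.toReal_ofReal (by positivity), Measure.addHaar_ball_center μ h]
  -- integrability
  have hgr : IntegrableOn g (ball (0 : E) r) μ :=
    hint.mono_set (ball_subset_ball hrδ.le)
  have hGr : IntegrableOn (fun k => G k) (ball (0 : E) r) μ :=
    (G.continuous.continuousOn.integrableOn_compact (isCompact_closedBall (0 : E) r)).mono_set
      ball_subset_closedBall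
  have hφr : IntegrableOn (fun k => |g k - G k|) (ball (0 : E) r) μ := (hgr.sub hGr).abs
  have hφρ : IntegrableOn (fun k => |g k - G k|) (ball h ρ) μ := hφr.mono_set hsubset
  have hgρ : IntegrableOn g (ball h ρ) μ := hgr.mono_set hsubset
  have hfin : μ (ball h ρ) ≠ ⊤ := measure_ball_lt_top.ne
  -- the mean of `g`
  have k1 : ∫ k in ball h ρ, g k ∂μ ≤
      ∫ k in ball h ρ, ((G h + ‖G‖ * ρ) + |g k - G k|) ∂μ := by
    apply setIntegral_mono_on hgρ _ measurableSet_ball
    · intro k hk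
      have h1 : G k - G h ≤ ‖G‖ * ρ := by
        have : G k - G h = G (k - h) := by simp
        rw [this]
        refine (le_abs_self _).trans ((G.le_opNorm _).trans ?_)
        apply mul_le_mul_of_nonneg_left _ (norm_nonneg _)
        rw [← dist_eq_norm]; exact (mem_ball.1 hk).le
      have h2 := le_abs_self (g k - G k)
      linarith
    · exact (integrableOn_const hfin).add hφρ
  have k2 : ∫ k in ball h ρ, ((G h + ‖G‖ * ρ) + |g k - G k|) ∂μ =
      μ.real (ball h ρ) * (G h + ‖G‖ * ρ) + ∫ k in ball h ρ, |g k - G k| ∂μ := by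
    have hcst : IntegrableOn (fun _ : E => G h + ‖G‖ * ρ) (ball h ρ) μ := integrableOn_const hfin
    rw [integral_add hcst hφρ, setIntegral_const, smul_eq_mul]
  have k3 : ∫ k in ball h ρ, |g k - G k| ∂μ ≤ ∫ k in ball (0 : E) r, |g k - G k| ∂μ :=
    setIntegral_mono_set hφr (Eventually.of_forall fun k => abs_nonneg _)
      (Eventually.of_forall hsubset)
  have k4 : ∫ k in ball (0 : E) r, |g k - G k| ∂μ =
      μ.real (ball (0 : E) r) * ⨍ k in ball (0 : E) r, |g k - G k| ∂μ := by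
    rw [setAverage_eq, smul_eq_mul, ← mul_assoc, mul_inv_cancel₀ hμr.ne', one_mul]
  have k5 : ⨍ k in ball (0 : E) r, |g k - G k| ∂μ ≤ ε / (4 * C) * r := by
    have := hA.le
    rw [inv_mul_le_iff₀ hrpos] at this
    linarith
  have k6 : ⨍ k in ball h ρ, g k ∂μ ≤ G h + ‖G‖ * ρ + C * (ε / (4 * C) * r) := by
    rw [setAverage_eq, smul_eq_mul, inv_mul_le_iff₀ hμρ]
    have : ∫ k in ball h ρ, g k ∂μ ≤ μ.real (ball h ρ) * (G h + ‖G‖ * ρ) +
        C * μ.real (ball h ρ) * (ε / (4 * C) * r) := by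
      refine k1.trans (k2.le.trans ?_)
      have := k3.trans k4.le
      rw [hμ] at this
      have h5 := mul_le_mul_of_nonneg_left k5 (by positivity : 0 ≤ C * μ.real (ball h ρ))
      linarith
    refine this.trans (le_of_eq ?_)
    ring
  have k7 : C * (ε / (4 * C) * r) ≤ ε / 2 * ‖h‖ := by
    have : C * (ε / (4 * C) * r) = ε / 4 * r := by field_simp
    rw [this, hr]
    have h9 := mul_nonneg (mul_nonneg hε.le (sub_nonneg.2 hη1)) hn.le
    linarith
  have k8 : ‖G‖ * ρ ≤ ε / 2 * ‖h‖ := by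
    rw [hρ, ← mul_assoc]
    exact mul_le_mul_of_nonneg_right hηG hn.le
  linarith

end general

/-- The differential of `u` in the mean kills the velocities of curves along which `u` is constant. -/
theorem kill {n : ℕ} (g : (Fin n → ℂ) → ℝ) (G : (Fin n → ℂ) →L[ℝ] ℝ)
    (hup : ∀ ε > 0, ∀ᶠ h in 𝓝 (0 : Fin n → ℂ), g h ≤ G h + ε * ‖h‖)
    (f : ℂ → (Fin n → ℂ)) (v : Fin n → ℂ) (hf : HasDerivAt f v 0) (h0 : f 0 = 0)
    (hu : ∀ᶠ t in 𝓝 (0 : ℂ), g (f t) = 0) (τ : ℂ) : G (τ • v) = 0 := by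
  have key : ∀ τ : ℂ, 0 ≤ G (τ • v) := by
    intro τ
    -- the real curve s ↦ f (s τ)
    have hc : HasDerivAt (fun s : ℝ => (s : ℂ) * τ) τ 0 := by
      have h1 : HasDerivAt (fun s : ℝ => (s : ℂ)) 1 0 := Complex.ofRealCLM.hasDerivAt
      simpa using h1.mul_const τ
    have hf' : HasDerivAt f v ((fun s : ℝ => (s : ℂ) * τ) 0) := by simpa using hf
    have hcomp : HasDerivAt (fun s : ℝ => f ((s : ℂ) * τ)) (τ • v) 0 :=
      HasDerivAt.scomp (𝕜 := ℝ) 0 hf' hc
    have hF0 : f (((0 : ℝ) : ℂ) * τ) = 0 := by simpa using h0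
    have hslope := hcomp.tendsto_slope_zero_right
    simp only [zero_add, hF0, sub_zero] at hslope
    -- limit of G of the slope
    have hG : Tendsto (fun s : ℝ => G (s⁻¹ • f ((s : ℂ) * τ))) (𝓝[>] 0) (𝓝 (G (τ • v))) :=
      (G.continuous.tendsto _).comp hslope
    have hN : Tendsto (fun s : ℝ => ‖s⁻¹ • f ((s : ℂ) * τ)‖) (𝓝[>] 0) (𝓝 ‖τ • v‖) :=
      hslope.norm
    have hct : Tendsto (fun s : ℝ => (s : ℂ) * τ) (𝓝[>] 0) (𝓝 (0 : ℂ)) := by
      have : Tendsto (fun s : ℝ => (s : ℂ) * τ) (𝓝 0) (𝓝 (((0 : ℝ) : ℂ) * τ)) :=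
        hc.continuousAt.tendsto
      simp only [Complex.ofReal_zero, zero_mul] at this
      exact this.mono_left nhdsWithin_le_nhds
    have hft : Tendsto f (𝓝 0) (𝓝 0) := by
      have := hf.continuousAt.tendsto
      rwa [h0] at this
    have hall : ∀ ε > 0, 0 ≤ G (τ • v) + ε * ‖τ • v‖ := by
      intro ε hε
      have ev1 : ∀ᶠ s : ℝ in 𝓝[>] 0, g (f ((s : ℂ) * τ)) ≤ G (f ((s : ℂ) * τ)) +
          ε * ‖f ((s : ℂ) * τ)‖ := (hft.comp hct).eventually (hup ε hε)
      have ev2 : ∀ᶠ s : ℝ in 𝓝[>] 0, g (f ((s : ℂ) * τ)) = 0 := hct.eventually hu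
      refine ge_of_tendsto (hG.add (hN.const_mul ε)) ?_
      filter_upwards [ev1, ev2, self_mem_nhdsWithin] with s h1 h2 hs
      have hs' : (0 : ℝ) < s := hs
      rw [h2] at h1
      have : G (s⁻¹ • f ((s : ℂ) * τ)) + ε * ‖s⁻¹ • f ((s : ℂ) * τ)‖ =
          s⁻¹ * (G (f ((s : ℂ) * τ)) + ε * ‖f ((s : ℂ) * τ)‖) := by
        rw [map_smul, smul_eq_mul, norm_smul, Real.norm_of_nonneg (by positivity)]
        ring
      rw [this]
      positivity
    have hlim : Tendsto (fun ε : ℝ => G (τ • v) + ε * ‖τ • v‖) (𝓝[>] 0)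
        (𝓝 (G (τ • v) + 0 * ‖τ • v‖)) := by
      have : Continuous fun ε : ℝ => G (τ • v) + ε * ‖τ • v‖ := by fun_prop
      exact (this.tendsto 0).mono_left nhdsWithin_le_nhds
    have := ge_of_tendsto hlim (by
      filter_upwards [self_mem_nhdsWithin] with ε hε
      exact hall ε hε)
    simpa using this
  have h1 := key τ
  have h2 := key (-τ)
  rw [neg_smul, map_neg] at h2
  linarith

theorem zero_of_span {n : ℕ} (G : (Fin n → ℂ) →L[ℝ] ℝ) (S : Set (Fin n → ℂ))
    (hS : Submodule.span ℂ S = ⊤) (h : ∀ v ∈ S, ∀ τ : ℂ, G (τ • v) = 0) : G = 0 := by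
  let M : Submodule ℂ (Fin n → ℂ) :=
    { carrier := {x | ∀ τ : ℂ, G (τ • x) = 0}
      add_mem' := fun {a b} ha hb τ => by rw [smul_add, map_add, ha τ, hb τ, add_zero]
      zero_mem' := fun τ => by rw [smul_zero, map_zero]
      smul_mem' := fun c x hx τ => by rw [smul_smul]; exact hx (τ * c) }
  have h1 : Submodule.span ℂ S ≤ M := Submodule.span_le.2 fun v hv τ => h v hv τ
  rw [hS] at h1
  ext x
  have := h1 (Submodule.mem_top (x := x)) 1
  simpa using this

/-- The pointwise core of TAN. -/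
theorem core {n : ℕ} (u : (Fin n → ℂ) → ℝ) (x : Fin n → ℂ) (G : (Fin n → ℂ) →L[ℝ] ℝ) {δ : ℝ}
    (hδ : 0 < δ)
    (hsub : ∀ h r, 0 < r → ‖h‖ + r < δ → u (x + h) ≤ ⨍ k in ball h r, u (x + k))
    (hint : IntegrableOn (fun k => u (x + k)) (ball 0 δ))
    (hdiff : Tendsto (fun r => r⁻¹ * ⨍ k in ball (0 : Fin n → ℂ) r, |u (x + k) - u x - G k|)
      (𝓝[>] 0) (𝓝 0))
    (S : Set (Fin n → ℂ)) (hS : Submodule.span ℂ S = ⊤)
    (hf : ∀ v ∈ S, ∃ f : ℂ → (Fin n → ℂ), HasDerivAt f v 0 ∧ f 0 = x ∧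
      ∀ᶠ t in 𝓝 (0 : ℂ), u (f t) = u x) : G = 0 := by
  rcases subsingleton_or_nontrivial (Fin n → ℂ) with hn | hn
  · ext y
    rw [Subsingleton.elim y 0, map_zero, ContinuousLinearMap.zero_apply]
  have hup : ∀ ε > 0, ∀ᶠ h in 𝓝 (0 : Fin n → ℂ), u (x + h) - u x ≤ G h + ε * ‖h‖ := by
    intro ε hε
    refine upper0 volume (fun k => u (x + k) - u x) G hδ ?_ ?_ (by simp) hdiff hε
    · intro h r hr hhr
      have h1 := hsub h r hr hhr
      have hfin : volume (ball h r) ≠ ⊤ := measure_ball_lt_top.ne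
      have hss : ball h r ⊆ ball (0 : Fin n → ℂ) δ := by
        apply ball_subset_ball'
        rw [dist_zero_right]
        linarith
      have hi : IntegrableOn (fun k => u (x + k)) (ball h r) := hint.mono_set hss
      have hc : IntegrableOn (fun _ : Fin n → ℂ => u x) (ball h r) := integrableOn_const hfin
      have hμ : 0 < volume.real (ball h r) := by
        rw [measureReal_def]
        exact ENNReal.toReal_pos (measure_ball_pos volume h hr).ne' hfin
      have e : ⨍ k in ball h r, (u (x + k) - u x) = (⨍ k in ball h r, u (x + k)) - u x := by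
        rw [setAverage_eq, setAverage_eq, integral_sub hi hc, setIntegral_const, smul_sub,
          smul_smul, inv_mul_cancel₀ hμ.ne', one_smul]
      rw [e]
      linarith
    · exact hint.sub (integrableOn_const measure_ball_lt_top.ne)
  refine zero_of_span G S hS fun v hv τ => ?_
  obtain ⟨f, hfd, hf0, hfu⟩ := hf v hv
  refine kill (fun k => u (x + k) - u x) G hup (fun t => f t - x) v
    (by simpa using hfd.sub_const x) (by simp [hf0]) ?_ τ
  filter_upwards [hfu] with t ht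
  simp only [add_sub_cancel, ht, sub_self]

end Vale.Agent.P284.H35.TAN
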