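import Mathlib

/-! P284, TAN: sub-mean inequality on balls of volume from the one on circles of complex lines. -/

open MeasureTheory Metric Filter Topology Set

namespace Vale.Agent.P284.H35.TAN

variable {n : ℕ}

theorem meas_ind {Ω : Set (Fin n → ℂ)} (hΩ : IsOpen Ω) {u : (Fin n → ℂ) → ℝ}
    (husc : ∀ z ∈ Ω, UpperSemicontinuousAt u z) : Measurable (Ω.indicator u) := by
  refine measurable_of_Iio fun a => ?_
  have h1 : IsOpen {x | x ∈ Ω ∧ u x < a} := by
    rw [isOpen_iff_mem_nhds]
    rintro x ⟨hx, hxa⟩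
    filter_upwards [hΩ.mem_nhds hx, husc x hx a hxa] with y hy hya
    exact ⟨hy, hya⟩
  have h2 : Ω.indicator u ⁻¹' Iio a =
      {x | x ∈ Ω ∧ u x < a} ∪ (Ωᶜ ∩ {_x | (0 : ℝ) < a}) := by
    ext x
    by_cases hx : x ∈ Ω <;> simp [hx]
  rw [h2]
  exact h1.measurableSet.union (hΩ.measurableSet.compl.inter (MeasurableSet.const _))

/-- multiplication by a unit complex number preserves the volume and the balls around `0` -/
theorem rot (n : ℕ) {a : ℂ} (ha : ‖a‖ = 1) :
    MeasurePreserving (fun z : Fin n → ℂ => a • z) := by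
  have h1 : MeasurePreserving (fun z : ℂ => a * z) := by
    have := (rotation ⟨a, by simpa [Submonoid.unitSphere] using ha⟩ : ℂ ≃ₗᵢ[ℝ] ℂ).measurePreserving
    exact this
  exact volume_preserving_pi fun _ : Fin n => h1

theorem mean0 {u : (Fin n → ℂ) → ℝ} (hm : Measurable u) {B : ℝ} (hB : ∀ z, |u z| ≤ B)
    {r : ℝ} (hr : 0 < r) (s : ℝ)
    (h : ∀ b ∈ ball (0 : Fin n → ℂ) r, s ≤ Real.circleAverage (fun ζ => u (ζ • b)) 0 1) :
    s ≤ ⨍ z in ball (0 : Fin n → ℂ) r, u z := by
  set μ : Measure (Fin n → ℂ) := volume.restrict (ball (0 : Fin n → ℂ) r) with hμdef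
  have hfin : volume (ball (0 : Fin n → ℂ) r) ≠ ⊤ := measure_ball_lt_top.ne
  have : IsFiniteMeasure μ := ⟨by rw [hμdef, Measure.restrict_apply_univ]; exact hfin.lt_top⟩
  have hμ : 0 < volume.real (ball (0 : Fin n → ℂ) r) := by
    rw [measureReal_def]
    exact ENNReal.toReal_pos (measure_ball_pos volume _ hr).ne' hfin
  have hpi : (0 : ℝ) < 2 * Real.pi := by positivity
  -- joint integrability
  have hmeas : Measurable fun q : (Fin n → ℂ) × ℝ => u (circleMap 0 1 q.2 • q.1) := by
    refine hm.comp ?_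
    have : Continuous fun q : (Fin n → ℂ) × ℝ => circleMap 0 1 q.2 • q.1 :=
      ((continuous_circleMap 0 1).comp continuous_snd).smul continuous_fst
    exact this.measurable
  set ν : Measure ℝ := volume.restrict (Ioc 0 (2 * Real.pi)) with hν
  have hint : Integrable (fun q : (Fin n → ℂ) × ℝ => u (circleMap 0 1 q.2 • q.1)) (μ.prod ν) :=
    Integrable.of_bound hmeas.aestronglyMeasurable B (Eventually.of_forall fun q => hB _)
  have hswap := integral_integral_swap (μ := μ) (ν := ν)
    (f := fun z θ => u (circleMap 0 1 θ • z)) hint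
  -- inner integrals
  have hin : ∀ θ : ℝ, ∫ z, u (circleMap 0 1 θ • z) ∂μ = ∫ z, u z ∂μ := by
    intro θ
    have hnorm : ‖circleMap 0 1 θ‖ = 1 := by simp
    have h1 := (rot n hnorm)
    have h2 : MeasurePreserving (fun z : Fin n → ℂ => circleMap 0 1 θ • z) μ μ := by
      have h3 := h1.restrict_preimage (measurableSet_ball (x := (0 : Fin n → ℂ)) (ε := r))
      have h4 : (fun z : Fin n → ℂ => circleMap 0 1 θ • z) ⁻¹' ball 0 r = ball 0 r := by
        ext z
        simp [norm_smul]
      rw [h4] at h3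
      exact h3
    exact h2.integral_comp' (f := by
      exact (Homeomorph.smulOfNeZero (circleMap 0 1 θ) (by
        rw [← norm_ne_zero_iff, hnorm]; exact one_ne_zero)).toMeasurableEquiv) u
  have hlow : s * volume.real (ball (0 : Fin n → ℂ) r) ≤
      ∫ z, (2 * Real.pi)⁻¹ * ∫ θ, u (circleMap 0 1 θ • z) ∂ν ∂μ := by
    have h1 : ∫ _z, s ∂μ = s * volume.real (ball (0 : Fin n → ℂ) r) := by
      rw [integral_const, smul_eq_mul, mul_comm, hμdef, measureReal_restrict_apply_univ]
    rw [← h1]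
    refine integral_mono_ae (integrable_const _) ?_ ?_
    · exact (hint.integral_prod_left).const_mul _
    · rw [hμdef]
      refine (ae_restrict_iff' measurableSet_ball).2 (Eventually.of_forall fun z hz => ?_)
      have := h z hz
      rw [Real.circleAverage_def, smul_eq_mul, intervalIntegral.integral_of_le hpi.le] at this
      exact this
  rw [integral_const_mul, hswap] at hlow
  simp only [hin] at hlow
  rw [integral_const, smul_eq_mul] at hlow
  have hνr : ν.real univ = 2 * Real.pi := by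
    rw [hν, measureReal_restrict_apply_univ]
    simp [measureReal_def, Real.pi_pos.le]
  rw [hνr, ← mul_assoc, inv_mul_cancel₀ hpi.ne', one_mul] at hlow
  rw [setAverage_eq, smul_eq_mul, le_inv_mul_iff₀ hμ]
  linarith

theorem ball_mean {Ω : Set (Fin n → ℂ)} (hΩ : IsOpen Ω) {u : (Fin n → ℂ) → ℝ}
    (hb : ∃ B, ∀ z, |u z| ≤ B) (husc : ∀ z ∈ Ω, UpperSemicontinuousAt u z)
    (hsub : ∀ (c b : Fin n → ℂ) (ρ : ℝ), 0 < ρ → (∀ ζ ∈ closedBall (0 : ℂ) ρ, c + ζ • b ∈ Ω) →
      u c ≤ Real.circleAverage (fun ζ => u (c + ζ • b)) 0 ρ)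
    {c : Fin n → ℂ} {r : ℝ} (hr : 0 < r) (hc : ball c r ⊆ Ω) : u c ≤ ⨍ z in ball c r, u z := by
  obtain ⟨B, hB⟩ := hb
  have hB0 : 0 ≤ B := (abs_nonneg _).trans (hB 0)
  set w : (Fin n → ℂ) → ℝ := fun z => Ω.indicator u (c + z) with hw
  have hwm : Measurable w := (meas_ind hΩ husc).comp (measurable_const_add c)
  have hwB : ∀ z, |w z| ≤ B := by
    intro z
    rw [hw]
    by_cases h : c + z ∈ Ω
    · simp only [indicator_of_mem h]; exact hB _
    · simp only [indicator_of_notMem h, abs_zero]; exact hB0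
  have hin : ∀ z ∈ ball (0 : Fin n → ℂ) r, c + z ∈ Ω := by
    intro z hz
    apply hc
    rw [mem_ball, dist_eq_norm, add_sub_cancel_left]
    simpa using hz
  have key := mean0 hwm hwB hr (u c) (by
    intro b hb
    have h1 : ∀ ζ ∈ closedBall (0 : ℂ) 1, ζ • b ∈ ball (0 : Fin n → ℂ) r := by
      intro ζ hζ
      rw [mem_closedBall, dist_zero_right] at hζ
      rw [mem_ball, dist_zero_right] at hb ⊢
      rw [norm_smul]
      nlinarith [norm_nonneg b, norm_nonneg ζ]
    have h2 := hsub c b 1 one_pos (fun ζ hζ => hin _ (h1 ζ hζ))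
    refine h2.trans (le_of_eq ?_)
    apply Real.circleAverage_congr_sphere
    intro ζ hζ
    have h3 : ζ ∈ closedBall (0 : ℂ) 1 := by
      rw [abs_one] at hζ
      exact sphere_subset_closedBall hζ
    show u (c + ζ • b) = w (ζ • b)
    rw [hw]
    simp only [indicator_of_mem (hin _ (h1 ζ h3))])
  refine key.trans (le_of_eq ?_)
  have e1 : ∫ z in ball (0 : Fin n → ℂ) r, w z = ∫ z in ball c r, u z := by
    have h1 : ∫ z in ball c r, u z = ∫ z in ball c r, Ω.indicator u z := by
      refine setIntegral_congr_fun measurableSet_ball fun z hz => ?_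
      simp only [indicator_of_mem (hc hz)]
    have hpre : (fun z => c + z) ⁻¹' ball c r = ball (0 : Fin n → ℂ) r := by
      ext z
      simp [dist_eq_norm]
    rw [h1, ← (measurePreserving_add_left volume c).setIntegral_preimage_emb
      (MeasurableEquiv.addLeft c).measurableEmbedding _ (ball c r), hpre]
  rw [setAverage_eq, setAverage_eq, e1, measureReal_def, measureReal_def,
    Measure.addHaar_ball_center volume c]

theorem integrable_ball {Ω : Set (Fin n → ℂ)} (hΩ : IsOpen Ω) {u : (Fin n → ℂ) → ℝ}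
    (hb : ∃ B, ∀ z, |u z| ≤ B) (husc : ∀ z ∈ Ω, UpperSemicontinuousAt u z) {c : Fin n → ℂ} {r : ℝ}
    (hc : ball c r ⊆ Ω) : IntegrableOn (fun k => u (c + k)) (ball 0 r) := by
  obtain ⟨B, hB⟩ := hb
  have hB0 : 0 ≤ B := (abs_nonneg _).trans (hB 0)
  have h1 : IntegrableOn (fun k => Ω.indicator u (c + k)) (ball (0 : Fin n → ℂ) r) := by
    have : IsFiniteMeasure (volume.restrict (ball (0 : Fin n → ℂ) r)) :=
      ⟨by rw [Measure.restrict_apply_univ]; exact measure_ball_lt_top⟩
    refine Integrable.of_bound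
      (((meas_ind hΩ husc).comp (measurable_const_add c)).aestronglyMeasurable) B
      (Eventually.of_forall fun z => ?_)
    rw [Real.norm_eq_abs]
    by_cases h : c + z ∈ Ω
    · simp only [indicator_of_mem h]; exact hB _
    · simp only [indicator_of_notMem h, abs_zero]; exact hB0
  refine h1.congr_fun (fun z hz => ?_) measurableSet_ball
  have : c + z ∈ Ω := hc (by
    rw [mem_ball, dist_eq_norm, add_sub_cancel_left]
    simpa using hz)
  simp only [indicator_of_mem this]

theorem hsub_core {Ω : Set (Fin n → ℂ)} (hΩ : IsOpen Ω) {u : (Fin n → ℂ) → ℝ}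
    (hb : ∃ B, ∀ z, |u z| ≤ B) (husc : ∀ z ∈ Ω, UpperSemicontinuousAt u z)
    (hsub : ∀ (c b : Fin n → ℂ) (ρ : ℝ), 0 < ρ → (∀ ζ ∈ closedBall (0 : ℂ) ρ, c + ζ • b ∈ Ω) →
      u c ≤ Real.circleAverage (fun ζ => u (c + ζ • b)) 0 ρ)
    {x : Fin n → ℂ} {δ : ℝ} (hx : ball x δ ⊆ Ω) (h : Fin n → ℂ) (r : ℝ) (hr : 0 < r)
    (hhr : ‖h‖ + r < δ) : u (x + h) ≤ ⨍ k in ball h r, u (x + k) := by
  have hss : ball (x + h) r ⊆ Ω := by
    refine Subset.trans ?_ hx
    apply ball_subset_ball'
    rw [dist_eq_norm, add_sub_cancel_left]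
    linarith
  refine (ball_mean hΩ hb husc hsub hr hss).trans (le_of_eq ?_)
  have hpre : (fun z => x + z) ⁻¹' ball (x + h) r = ball h r := by
    ext z
    simp [dist_eq_norm]
  rw [setAverage_eq, setAverage_eq, ← (measurePreserving_add_left volume x).setIntegral_preimage_emb
      (MeasurableEquiv.addLeft x).measurableEmbedding _ (ball (x + h) r), hpre, measureReal_def,
    measureReal_def, Measure.addHaar_ball_center volume (x + h), Measure.addHaar_ball_center volume h]

end Vale.Agent.P284.H35.TAN
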