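import Vale.Agent.P284.H639.S.Span

/-!
# P284, TAN (helper35): velocities of entire curves in another chart
-/

open scoped Manifold ContDiff Topology
open Filter Set Metric MeasureTheory

noncomputable section

namespace Vale.Agent.P284.H35.TAN

open Vale.Agent.P272.K Vale.Agent.P284.H894.V Vale.Agent.P284.H894.F Vale.Agent.P284.H5.V
  Vale.Agent.P284.H894 Vale.Agent.P284.H66.FDs

variable {n : ℕ} {X : Type} [TopologicalSpace X] [T2Space X] [ChartedSpace (Cm n) X]
  [IsManifold 𝓘(ℂ, Cm n) ω X] {f : ℂ → X}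

theorem vel_change {x : X} {e : Chart n X} (he : At e x) {v : Cm n}
    (hf : ContMDiff 𝓘(ℂ) 𝓘(ℂ, Cm n) ω f) (hb : f 0 = x)
    (hv : ∀ k, deriv (fun s => chartAt (Cm n) x (f s) k) 0 = v k) :
    v = fderiv ℂ (fun z => chartAt (Cm n) x (e.symm z)) (e x) (deriv (fun s => e (f s)) 0) := by
  have hAt : At (chartAt (Cm n) x) (f 0) := by rw [hb]; exact at_chartAt _
  have he' : At e (f 0) := by rw [hb]; exact he
  have h1 : deriv (fun s => chartAt (Cm n) x (f s)) 0 = v := by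
    rw [← vel_eq hf hAt]
    funext k
    exact hv k
  have hd1 : DifferentiableAt ℂ (fun s => e (f s)) 0 :=
    (tau_sm hf he').differentiableAt (by simp)
  have hd2 := transition_differentiableAt he' hAt
  have h2 : (fun s => chartAt (Cm n) x (f s)) =ᶠ[𝓝 0]
      fun s => chartAt (Cm n) x (e.symm (e (f s))) := by
    filter_upwards [at_nr hf he'] with ξ hξ
    rw [hξ.left_inv]
  have h3 : HasDerivAt (fun s => chartAt (Cm n) x (e.symm (e (f s))))
      (fderiv ℂ (fun z => chartAt (Cm n) x (e.symm z)) (e (f 0)) (deriv (fun s => e (f s)) 0)) 0 :=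
    HasFDerivAt.comp_hasDerivAt (l := fun z => chartAt (Cm n) x (e.symm z))
      (f := fun s => e (f s)) 0 hd2.hasFDerivAt hd1.hasDerivAt
  rw [← h1, h2.deriv_eq, h3.deriv, hb]

theorem hasDeriv {x : X} {e : Chart n X} (he : At e x)
    (hf : ContMDiff 𝓘(ℂ) 𝓘(ℂ, Cm n) ω f) (hb : f 0 = x) :
    HasDerivAt (fun s => e (f s)) (deriv (fun s => e (f s)) 0) 0 :=
  ((tau_sm hf (by rw [hb]; exact he : At e (f 0))).differentiableAt (by simp)).hasDerivAt

theorem span_change {x : X} {e : Chart n X} (he : At e x)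
    (h : Submodule.span ℂ {v : Cm n | ∃ f : ℂ → X, ContMDiff 𝓘(ℂ) 𝓘(ℂ, Cm n) ω f ∧ f 0 = x ∧
      ∀ k, deriv (fun s => chartAt (Cm n) x (f s) k) 0 = v k} = ⊤) :
    Submodule.span ℂ {v' : Cm n | ∃ f : ℂ → X, ContMDiff 𝓘(ℂ) 𝓘(ℂ, Cm n) ω f ∧ f 0 = x ∧
      v' = deriv (fun s => e (f s)) 0} = ⊤ := by
  set D := {v' : Cm n | ∃ f : ℂ → X, ContMDiff 𝓘(ℂ) 𝓘(ℂ, Cm n) ω f ∧ f 0 = x ∧
      v' = deriv (fun s => e (f s)) 0}
  set T := (fderiv ℂ (fun z => chartAt (Cm n) x (e.symm z)) (e x)).toLinearMap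
  have h1 : (⊤ : Submodule ℂ (Cm n)) ≤ (Submodule.span ℂ D).map T := by
    rw [← h, Submodule.span_le]
    rintro v ⟨f, hf, hb, hv⟩
    exact ⟨_, Submodule.subset_span ⟨f, hf, hb, rfl⟩, (vel_change he hf hb hv).symm⟩
  have h2 := Submodule.finrank_mono h1
  have h3 := Submodule.finrank_map_le T (Submodule.span ℂ D)
  exact Submodule.eq_top_of_finrank_eq (le_antisymm (Submodule.finrank_le _) (by
    rw [finrank_top] at h2
    exact h2.trans h3))

end Vale.Agent.P284.H35.TAN
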